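import Vale.Agent.P249.Core.Assembly
import Vale.Agent.P249.Core.Split

namespace Vale.Agent.Results.P249.EveryDistortion

open Vale.Agent.P249

/-- For every `p > 1` and every `D > 1` there are `σ > 0` and `C` such that every `n`-point subset
of a finite-dimensional `ℓ_p` space embeds into `ℓ_p^d` with distortion at most `D` and
`d ≤ C n ^ (1 - σ)`. -/
theorem result (p : ℝ) (hp : 1 < p) (D : ℝ) (hD : 1 < D) :
    ∃ σ C : ℝ, 0 < σ ∧ ∀ (n m : ℕ) (X : Fin n → Fin m → ℝ), Function.Injective X →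
      ∃ (d : ℕ) (f : Fin n → Fin d → ℝ) (s : ℝ), 0 < s ∧ (d : ℝ) ≤ C * (n : ℝ) ^ (1 - σ) ∧
        ∀ i i', s * lpDist p (X i) (X i') ≤ lpDist p (f i) (f i') ∧
          lpDist p (f i) (f i') ≤ D * s * lpDist p (X i) (X i') :=
  Core.embedding_of_split hp (Core.split_exists hp) hD

end Vale.Agent.Results.P249.EveryDistortion
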