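import Vale.Agent.P249.Points
import Vale.Agent.P249.Dim.Glue

namespace Vale.Agent.Results.P249.SublinearDimension

open Vale.Agent.P249 Vale.Agent.P249.Dim Finset

lemma lpDist_eq_nm (p : ℝ) {m : ℕ} (x y : Fin m → ℝ) : lpDist p x y = nm p (x - y) := rfl

lemma nm_reindex {α β : Type*} [Fintype α] [Fintype β] (p : ℝ) (e : β ≃ α) (v : α → ℝ) :
    nm p (fun b => v (e b)) = nm p v := by
  simp only [nm, pw]
  rw [e.sum_comp (fun a => |v a| ^ p)]

lemma dim_le {p ε : ℝ} (hp : 1 ≤ p) (hε : 0 < ε) {K : ℕ} (hK : 72 * p / ε ≤ K) :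
    ∀ n : ℕ, 1 ≤ n →
      ((24 * (Nat.log 2 n + 1) *
        hashDim (Nat.log 2 n + 1) (loadC p K ((Nat.log 2 n + 1) / K + 1) (bandC K)) : ℕ) : ℝ) ≤
      312 * (1 + 8 / ε) ^ 2 * ((2:ℝ) ^ (2 * K)) ^ 2 * (9 * bandC K * 64 ^ 3) ^ (2 * p) *
        (2:ℝ) ^ (ε / 2) * (n:ℝ) ^ ε := by
  intro n hn
  have hp0 : 0 < p := by linarith
  set k := Nat.log 2 n + 1 with hk
  set q := k / K with hq
  set a := loadC p K (q + 1) (bandC K) with ha
  have hn0 : (0:ℝ) < n := by exact_mod_cast hn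
  have hn1 : (1:ℝ) ≤ n := by exact_mod_cast hn
  have hK0 : (0:ℝ) < K := lt_of_lt_of_le (by positivity) hK
  have hH1 := one_le_bandC K
  have ha1 : 1 ≤ a := by
    rw [ha, loadC]
    have h1 : (1:ℝ) ≤ ((64:ℝ) ^ (q + 1)) ^ 3 := one_le_pow₀ (one_le_pow₀ (by norm_num))
    exact one_le_mul_of_one_le_of_one_le (one_le_pow₀ (by norm_num))
      (Real.one_le_rpow (by nlinarith) hp0.le)
  have hdim : ((24 * k * hashDim k a : ℕ) : ℝ) ≤ 312 * (k:ℝ) ^ 2 * a ^ 2 := by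
    have h1 := Nat.ceil_lt_add_one (show (0:ℝ) ≤ 3 * (k:ℝ) * (4 * a ^ 2) by positivity)
    have h2 : (1:ℝ) ≤ k := by rw [hk]; push_cast; linarith [Nat.cast_nonneg (α := ℝ) (Nat.log 2 n)]
    have h3 : 1 ≤ (k:ℝ) * a ^ 2 := one_le_mul_of_one_le_of_one_le h2 (one_le_pow₀ ha1)
    push_cast
    calc 24 * (k:ℝ) * (hashDim k a : ℝ) ≤ 24 * k * (13 * (k * a ^ 2)) := by
          refine mul_le_mul_of_nonneg_left ?_ (by positivity)
          rw [hashDim]; linarith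
      _ = _ := by ring
  have hkn : (k:ℝ) ≤ (1 + 8 / ε) * (n:ℝ) ^ (ε / 4) := by
    have h1 : (1:ℝ) ≤ (n:ℝ) ^ (ε / 4) := Real.one_le_rpow hn1 (by positivity)
    have h2 : (Nat.log 2 n : ℝ) * Real.log 2 ≤ Real.log n := by
      rw [← Real.log_pow]
      exact Real.log_le_log (by positivity)
        (by exact_mod_cast Nat.pow_log_le_self 2 (show n ≠ 0 by omega))
    have h3 : (Nat.log 2 n : ℝ) ≤ 2 * Real.log n := by
      nlinarith [Real.log_two_gt_d9, Nat.cast_nonneg (α := ℝ) (Nat.log 2 n)]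
    have h4 := Real.log_natCast_le_rpow_div n (show 0 < ε / 4 by positivity)
    have h5 : 2 * ((n:ℝ) ^ (ε / 4) / (ε / 4)) = 8 / ε * (n:ℝ) ^ (ε / 4) := by field_simp; ring
    rw [hk]; push_cast
    linarith
  have hpow : ((2:ℝ) ^ (18 * q)) ^ (2 * p) ≤ (2:ℝ) ^ (ε / 2) * (n:ℝ) ^ (ε / 2) := by
    have h1 : (q:ℝ) ≤ (k:ℝ) / K := Nat.cast_div_le
    have h2 : 36 * p / K ≤ ε / 2 := by
      rw [div_le_iff₀ hK0]
      rw [div_le_iff₀ hε] at hK
      linarith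
    have h3 : (2:ℝ) ^ k ≤ 2 * n := by
      have := Nat.pow_log_le_self 2 (show n ≠ 0 by omega)
      rw [hk, pow_succ]
      have h' : (2:ℝ) ^ Nat.log 2 n ≤ n := by exact_mod_cast this
      linarith
    rw [← Real.rpow_natCast, ← Real.rpow_mul (by norm_num)]
    calc (2:ℝ) ^ (((18 * q : ℕ) : ℝ) * (2 * p)) ≤ (2:ℝ) ^ ((k:ℝ) * (36 * p / K)) := by
          refine Real.rpow_le_rpow_of_exponent_le (by norm_num) ?_
          push_cast
          calc 18 * (q:ℝ) * (2 * p) = q * (36 * p) := by ring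
            _ ≤ (k:ℝ) / K * (36 * p) := mul_le_mul_of_nonneg_right h1 (by positivity)
            _ = _ := by ring
      _ = ((2:ℝ) ^ k) ^ (36 * p / K) := by rw [Real.rpow_natCast_mul (by norm_num)]
      _ ≤ (2 * (n:ℝ)) ^ (36 * p / K) := Real.rpow_le_rpow (by positivity) h3 (by positivity)
      _ ≤ (2 * (n:ℝ)) ^ (ε / 2) := Real.rpow_le_rpow_of_exponent_le (by linarith) h2
      _ = _ := Real.mul_rpow (by norm_num) hn0.le
  have ha2 : a ^ 2 = ((2:ℝ) ^ (2 * K)) ^ 2 * ((9 * bandC K * 64 ^ 3) ^ (2 * p) *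
      ((2:ℝ) ^ (18 * q)) ^ (2 * p)) := by
    rw [ha, loadC, mul_pow, ← Real.mul_rpow (by positivity) (by positivity)]
    congr 1
    rw [← Real.rpow_natCast _ 2, ← Real.rpow_mul (by positivity), Nat.cast_ofNat, mul_comm p 2]
    congr 1
    have e18 : (2:ℝ) ^ (18 * q) = ((64:ℝ) ^ q) ^ 3 := by
      rw [show (64:ℝ) = 2 ^ 6 by norm_num, ← pow_mul, ← pow_mul]
      ring_nf
    rw [e18]
    ring
  calc ((24 * k * hashDim k a : ℕ) : ℝ) ≤ 312 * (k:ℝ) ^ 2 * a ^ 2 := hdim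
    _ ≤ 312 * ((1 + 8 / ε) * (n:ℝ) ^ (ε / 4)) ^ 2 * (((2:ℝ) ^ (2 * K)) ^ 2 *
          ((9 * bandC K * 64 ^ 3) ^ (2 * p) * ((2:ℝ) ^ (ε / 2) * (n:ℝ) ^ (ε / 2)))) := by
        rw [ha2]
        refine mul_le_mul (mul_le_mul_of_nonneg_left (pow_le_pow_left₀ (Nat.cast_nonneg k) hkn 2)
          (by norm_num)) ?_ (by positivity) (by positivity)
        exact mul_le_mul_of_nonneg_left (mul_le_mul_of_nonneg_left hpow (by positivity))
          (by positivity)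
    _ = _ := by
        have e1 : ((n:ℝ) ^ (ε / 4)) ^ 2 = (n:ℝ) ^ (ε / 2) := by
          rw [← Real.rpow_natCast, ← Real.rpow_mul hn0.le]; norm_num; ring_nf
        have e2 : (n:ℝ) ^ (ε / 2) * (n:ℝ) ^ (ε / 2) = (n:ℝ) ^ ε := by
          rw [← Real.rpow_add hn0]; ring_nf
        rw [mul_pow (1 + 8 / ε), e1, ← e2]
        ring

/-- For every `p ≥ 1` and `ε > 0` there are `D` and `C` such that every `n`-point subset of a
finite-dimensional `ℓ_p` space embeds into `ℓ_p^d` with distortion `D` and `d ≤ C n^ε`. -/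
theorem result (p : ℝ) (hp : 1 ≤ p) (ε : ℝ) (hε : 0 < ε) :
    ∃ D C : ℝ, 1 ≤ D ∧ ∀ (n m : ℕ) (X : Fin n → Fin m → ℝ), Function.Injective X →
      ∃ (d : ℕ) (f : Fin n → Fin d → ℝ) (s : ℝ), 0 < s ∧ (d : ℝ) ≤ C * (n : ℝ) ^ ε ∧
        ∀ i i', s * lpDist p (X i) (X i') ≤ lpDist p (f i) (f i') ∧
          lpDist p (f i) (f i') ≤ D * s * lpDist p (X i) (X i') := by
  set K := ⌈72 * p / ε⌉₊ + 1 with hKdef
  have hK : 72 * p / ε ≤ K := by
    rw [hKdef]; push_cast; linarith [Nat.le_ceil (72 * p / ε)]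
  refine ⟨2048 * upC K,
    312 * (1 + 8 / ε) ^ 2 * ((2:ℝ) ^ (2 * K)) ^ 2 * (9 * bandC K * 64 ^ 3) ^ (2 * p) *
      (2:ℝ) ^ (ε / 2), by linarith [upC_ge K], fun n m X hX => ?_⟩
  rcases Nat.eq_zero_or_pos n with rfl | hn
  · exact ⟨0, fun i => i.elim0, 1, one_pos, by simp [Real.zero_rpow hε.ne'], fun i => i.elim0⟩
  set k := Nat.log 2 n + 1 with hk
  set L := k / K + 1 with hL
  have hkKL : k ≤ K * L := (Nat.lt_mul_div_succ k (by omega : 0 < K)).le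
  obtain ⟨f, s, hs, hf⟩ := exists_map hp X hX (L := L) (K := K) (k := k) (Nat.le_add_left 1 _)
    (Nat.le_add_left 1 _) hkKL
    (by rw [Fintype.card_fin, hk]; exact Nat.lt_pow_succ_log_self one_lt_two n)
  refine ⟨24 * k * hashDim k (loadC p K L (bandC K)),
    fun i c => f i (finProdFinEquiv.symm c), s, hs, dim_le hp hε hK n hn, fun i i' => ?_⟩
  have e : lpDist p (fun c => f i (finProdFinEquiv.symm c))
      (fun c => f i' (finProdFinEquiv.symm c)) = nm p (f i - f i') := by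
    rw [lpDist_eq_nm]
    exact nm_reindex p finProdFinEquiv.symm (f i - f i')
  rw [e, lpDist_eq_nm]
  exact hf i i'

end Vale.Agent.Results.P249.SublinearDimension
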