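import Vale.Agent.P249.Points
import Mathlib.Analysis.Complex.ExponentialBounds

namespace Vale.Agent.Results.P249.SuperlogLowerBound

open Vale.Agent.P249

lemma card_grid_le {k n : ℕ} (hk : 16 ≤ k) (hn : 1 ≤ n) (x : ℝ) (hx : x = Real.log n)
    (hkx : (k:ℝ) ≤ x) (h : 4 * (k:ℝ) * Real.log x ≤ x) :
    Fintype.card (GridIdx k) ≤ n := by
  rw [Fintype.card_fun, Fintype.card_fin, Fintype.card_fin]
  have hkr : (16:ℝ) ≤ k := by exact_mod_cast hk
  have h1 : ((k * (k + 2) + 1 : ℕ) : ℝ) ≤ (k:ℝ) ^ 4 := by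
    push_cast
    nlinarith [mul_le_mul hkr hkr (by norm_num) (by linarith : (0:ℝ) ≤ (k:ℝ)),
      sq_nonneg ((k:ℝ) ^ 2 - 16)]
  have h2 : Real.log (((k * (k + 2) + 1) ^ k : ℕ) : ℝ) ≤ Real.log n := by
    rw [Nat.cast_pow, Real.log_pow]
    have h3 : Real.log ((k * (k + 2) + 1 : ℕ) : ℝ) ≤ 4 * Real.log x := by
      calc Real.log ((k * (k + 2) + 1 : ℕ) : ℝ) ≤ Real.log ((k:ℝ) ^ 4) :=
            Real.log_le_log (by positivity) h1
        _ = 4 * Real.log k := by rw [Real.log_pow]; norm_num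
        _ ≤ 4 * Real.log x := by
            have := Real.log_le_log (by linarith : (0:ℝ) < (k:ℝ)) hkx; linarith
    calc (k:ℝ) * Real.log ((k * (k + 2) + 1 : ℕ) : ℝ) ≤ (k:ℝ) * (4 * Real.log x) :=
          mul_le_mul_of_nonneg_left h3 (Nat.cast_nonneg k)
      _ ≤ x := by linarith
      _ = Real.log n := hx
  have := (Real.log_le_log_iff (by positivity) (by exact_mod_cast hn)).1 h2
  exact_mod_cast this

/-- For every `p > 2` and `D ≥ 1` some `n`-point subsets of finite `ℓ_p` spaces need dimension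
at least `c (log n / log log n)^(p/2)` at distortion `D`. -/
theorem result (p : ℝ) (hp : 2 < p) (D : ℝ) (hD : 1 ≤ D) :
    ∃ c : ℝ, 0 < c ∧ ∀ n : ℕ, 16 ≤ n →
      ∃ (m : ℕ) (X : Fin n → Fin m → ℝ), Function.Injective X ∧
        ∀ (d : ℕ) (f : Fin n → Fin d → ℝ),
          (∃ s : ℝ, 0 < s ∧ ∀ i i', s * lpDist p (X i) (X i') ≤ lpDist p (f i) (f i') ∧
            lpDist p (f i) (f i') ≤ D * s * lpDist p (X i) (X i')) →
          c * (Real.log n / Real.log (Real.log n)) ^ (p / 2) ≤ d := by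
  have hK := one_le_lbK hp.le hD
  have hK0 : 0 < lbK p D := by linarith
  refine ⟨((512:ℝ) ^ (p / 2) * lbK p D)⁻¹, by positivity, fun n hn => ?_⟩
  set x := Real.log n with hx
  set y := x / Real.log x with hy
  have hlog16 : Real.log 16 = 4 * Real.log 2 := by
    rw [show (16:ℝ) = 2 ^ 4 by norm_num, Real.log_pow]; norm_num
  have hx27 : (2.772:ℝ) ≤ x := by
    have h1 : Real.log 16 ≤ x := Real.log_le_log (by norm_num) (by exact_mod_cast hn)
    linarith [Real.log_two_gt_d9]
  have hlx : 1 ≤ Real.log x := by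
    rw [Real.le_log_iff_exp_le (by linarith)]
    linarith [Real.exp_one_lt_d9]
  have hy0 : 0 ≤ y := div_nonneg (by linarith) (by linarith)
  have hyx : y ≤ x := div_le_self (by linarith) hlx
  by_cases hsmall : y < 128
  · -- dimension at least one suffices
    obtain ⟨X, hX⟩ : ∃ X : Fin n → Fin 1 → ℝ, Function.Injective X :=
      ⟨fun i _ => (i:ℕ), fun i i' h => Fin.ext (Nat.cast_injective (congrFun h 0))⟩
    refine ⟨1, X, hX, fun d f ⟨s, hs, hf⟩ => ?_⟩
    have hd : 1 ≤ d := by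
      by_contra hd0
      obtain rfl : d = 0 := by omega
      let i : Fin n := ⟨0, by omega⟩
      let i' : Fin n := ⟨1, by omega⟩
      have h1 := (hf i i').1
      have h2 : lpDist p (f i) (f i') = 0 := by
        simp [lpDist, Real.zero_rpow, (by linarith : p ≠ 0)]
      have h3 : 0 < lpDist p (X i) (X i') := by
        have hne : X i 0 - X i' 0 ≠ 0 := by
          refine sub_ne_zero.2 fun h => ?_
          have h' : X i = X i' := funext fun t => (Fin.eq_zero t).symm ▸ h
          exact absurd (congrArg Fin.val (hX h')) (by norm_num)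
        refine Real.rpow_pos_of_pos ?_ _
        rw [Fin.sum_univ_one]
        exact Real.rpow_pos_of_pos (abs_pos.2 hne) _
      rw [h2] at h1
      linarith [mul_pos hs h3]
    have h4 : y ^ (p / 2) ≤ (512:ℝ) ^ (p / 2) * lbK p D :=
      (Real.rpow_le_rpow hy0 (by linarith) (by linarith)).trans
        (le_mul_of_one_le_right (by positivity) hK)
    rw [inv_mul_le_iff₀ (by positivity)]
    refine h4.trans (le_mul_of_one_le_right (by positivity) ?_)
    exact_mod_cast hd
  · push Not at hsmall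
    set k := ⌊y / 4⌋₊ with hk
    have h1 : (k:ℝ) ≤ y / 4 := Nat.floor_le (by linarith)
    have h2 : y / 4 < (k:ℝ) + 1 := Nat.lt_floor_add_one _
    have hk16 : 16 ≤ k := by
      have : (16:ℝ) ≤ k := by linarith
      exact_mod_cast this
    have h4k : 4 * (k:ℝ) * Real.log x ≤ x := by
      have h3 : 4 * (k:ℝ) * Real.log x ≤ y * Real.log x :=
        mul_le_mul_of_nonneg_right (by linarith) (by linarith)
      rwa [hy, div_mul_cancel₀ _ (by linarith : Real.log x ≠ 0)] at h3
    obtain ⟨m, X, hX, hb⟩ := exists_points hp.le hD hk16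
      (card_grid_le hk16 (by omega) x hx (by linarith) h4k)
    refine ⟨m, X, hX, fun d f ⟨s, hs, hf⟩ => ?_⟩
    have hk2 := hb d f s hs hf
    rw [inv_mul_le_iff₀ (by positivity)]
    calc y ^ (p / 2) ≤ ((512:ℝ) * k) ^ (p / 2) :=
          Real.rpow_le_rpow hy0 (by linarith) (by linarith)
      _ = (512:ℝ) ^ (p / 2) * (k:ℝ) ^ (p / 2) := Real.mul_rpow (by norm_num) (Nat.cast_nonneg k)
      _ ≤ (512:ℝ) ^ (p / 2) * (lbK p D * d) := mul_le_mul_of_nonneg_left hk2 (by positivity)
      _ = _ := by ring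

end Vale.Agent.Results.P249.SuperlogLowerBound
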